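import Crest.Prelude.Def_MatchingPolytope

/-!
# S0466 helper leaf (helper92): the perfect-matching polytope as the set of edge marginals of matching laws

`x ∈ pmPolytope ends ↔ ∃ p, IsMatchingLaw ends p ∧ x = ∑ M, p M • pmIndicator M`,
and the coordinate form `x e = marginal p e`.
-/

set_option autoImplicit false

namespace Crest.Agent.Helper92.S0466

open Crest.Matchings

theorem pmIndicator_injective {k : ℕ} :
    Function.Injective (pmIndicator : Finset (Fin k) → Fin k → ℝ) := by
  intro M N h
  ext e
  have he := congrFun h e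
  unfold pmIndicator at he
  by_cases h1 : e ∈ M <;> by_cases h2 : e ∈ N <;> simp [h1, h2] at he ⊢

/-- coordinates of a mixture of indicator vectors are the marginals -/
theorem sum_smul_pmIndicator_apply {k : ℕ} (p : Finset (Fin k) → ℝ) (e : Fin k) :
    (∑ M, p M • pmIndicator M) e = marginal p e := by
  classical
  unfold marginal
  rw [Finset.sum_apply, Finset.sum_filter]
  refine Finset.sum_congr rfl (fun M _ => ?_)
  unfold pmIndicator
  by_cases h : e ∈ M <;> simp [h]

/-- a mixture of perfect-matching indicators lies in the polytope -/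
theorem mem_pmPolytope_of_law {v k : ℕ} (ends : Fin k → Fin v × Fin v)
    (p : Finset (Fin k) → ℝ) (hp : IsMatchingLaw ends p) :
    (∑ M, p M • pmIndicator M) ∈ pmPolytope ends := by
  classical
  obtain ⟨h0, h1, hsupp⟩ := hp
  have hsum : (∑ M, p M • pmIndicator M)
      = ∑ M ∈ Finset.univ.filter (fun M => p M ≠ 0), p M • pmIndicator M := by
    rw [Finset.sum_filter]
    refine Finset.sum_congr rfl (fun M _ => ?_)
    by_cases h : p M = 0 <;> simp [h]
  rw [hsum]
  unfold pmPolytope
  refine (convex_convexHull ℝ _).sum_mem (fun M _ => h0 M) ?_ ?_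
  · rw [Finset.sum_filter, ← h1]
    refine Finset.sum_congr rfl (fun M _ => ?_)
    by_cases h : p M = 0 <;> simp [h]
  · intro M hM
    rw [Finset.mem_filter] at hM
    exact subset_convexHull ℝ _ ⟨M, hsupp M hM.2, rfl⟩

/-- every point of the polytope is a mixture of perfect-matching indicators -/
theorem exists_law_of_mem_pmPolytope {v k : ℕ} (ends : Fin k → Fin v × Fin v)
    (x : Fin k → ℝ) (hx : x ∈ pmPolytope ends) :
    ∃ p : Finset (Fin k) → ℝ, IsMatchingLaw ends p ∧ x = ∑ M, p M • pmIndicator M := by
  classical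
  set PM : Finset (Finset (Fin k)) := Finset.univ.filter (fun M => IsPerfectMatching ends M)
    with hPM
  have hset : pmIndicator '' {M : Finset (Fin k) | IsPerfectMatching ends M}
      = ((PM.image pmIndicator : Finset (Fin k → ℝ)) : Set (Fin k → ℝ)) := by
    ext y
    simp [hPM]
  unfold pmPolytope at hx
  rw [hset, Finset.convexHull_eq] at hx
  obtain ⟨w, hw0, hw1, hwx⟩ := hx
  refine ⟨fun M => if M ∈ PM then w (pmIndicator M) else 0, ⟨?_, ?_, ?_⟩, ?_⟩
  · intro M
    by_cases hM : M ∈ PM
    · simp only [hM, if_true]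
      exact hw0 _ (Finset.mem_image_of_mem _ hM)
    · simp [hM]
  · rw [← hw1, Finset.sum_image (fun a _ b _ h => pmIndicator_injective h)]
    rw [← Finset.sum_filter_add_sum_filter_not Finset.univ (fun M => M ∈ PM)]
    have h2 : ∑ M ∈ Finset.univ.filter (fun M => ¬ M ∈ PM),
        (if M ∈ PM then w (pmIndicator M) else 0) = 0 := by
      refine Finset.sum_eq_zero (fun M hM => ?_)
      rw [Finset.mem_filter] at hM
      simp [hM.2]
    rw [h2, add_zero]
    have h3 : Finset.univ.filter (fun M => M ∈ PM) = PM := by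
      ext M; simp
    rw [h3]
    refine Finset.sum_congr rfl (fun M hM => ?_)
    simp [hM]
  · intro M hM
    by_contra hne
    apply hM
    have : M ∉ PM := by
      intro hmem
      rw [hPM, Finset.mem_filter] at hmem
      exact hne hmem.2
    simp [this]
  · rw [← hwx, Finset.centerMass_eq_of_sum_1 _ _ hw1]
    rw [Finset.sum_image (fun a _ b _ h => pmIndicator_injective h)]
    rw [← Finset.sum_filter_add_sum_filter_not Finset.univ (fun M => M ∈ PM)]
    have h2 : ∑ M ∈ Finset.univ.filter (fun M => ¬ M ∈ PM),
        (if M ∈ PM then w (pmIndicator M) else 0) • pmIndicator M = 0 := by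
      refine Finset.sum_eq_zero (fun M hM => ?_)
      rw [Finset.mem_filter] at hM
      simp [hM.2]
    rw [h2, add_zero]
    have h3 : Finset.univ.filter (fun M => M ∈ PM) = PM := by
      ext M; simp
    rw [h3]
    refine Finset.sum_congr rfl (fun M hM => ?_)
    simp [hM]

/-- LAW: the polytope is exactly the set of mixtures of perfect-matching indicators. -/
theorem mem_pmPolytope_iff {v k : ℕ} (ends : Fin k → Fin v × Fin v) (x : Fin k → ℝ) :
    x ∈ pmPolytope ends ↔
      ∃ p : Finset (Fin k) → ℝ, IsMatchingLaw ends p ∧ x = ∑ M, p M • pmIndicator M := by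
  constructor
  · exact exists_law_of_mem_pmPolytope ends x
  · rintro ⟨p, hp, rfl⟩
    exact mem_pmPolytope_of_law ends p hp

/-- LAW, coordinate form: the polytope is the set of edge-marginal vectors of matching laws. -/
theorem mem_pmPolytope_iff_marginal {v k : ℕ} (ends : Fin k → Fin v × Fin v) (x : Fin k → ℝ) :
    x ∈ pmPolytope ends ↔
      ∃ p : Finset (Fin k) → ℝ, IsMatchingLaw ends p ∧ ∀ e, x e = marginal p e := by
  rw [mem_pmPolytope_iff]
  constructor
  · rintro ⟨p, hp, rfl⟩
    exact ⟨p, hp, fun e => sum_smul_pmIndicator_apply p e⟩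
  · rintro ⟨p, hp, hx⟩
    refine ⟨p, hp, ?_⟩
    funext e
    rw [hx e, sum_smul_pmIndicator_apply]

end Crest.Agent.Helper92.S0466
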